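import Vale.Agent.P107.H15.Defs

/-!
Global solutions for data without any condition at spatial infinity, by gluing the solutions of
truncated data.
-/

open MeasureTheory Set Filter Topology
open scoped ContDiff

namespace Vale.Agent.P107.RVM

/-- Finite speed of propagation. -/
def FiniteSpeed : Prop := ∀ (T : ℝ) (f g : ℝ → V3 → V3 → ℝ) (E B E' B' : ℝ → V3 → V3) (x₀ : V3)
    (R : ℝ), IsLocalSolution T f E B → IsLocalSolution T g E' B' →
    AgreeAt {x | len (x - x₀) ≤ R} 0 f g E B E' B' →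
    ∀ t ∈ Ico 0 T, AgreeAt {x | len (x - x₀) ≤ R - t} t f g E B E' B'

/-- Truncation of data. -/
def Truncation : Prop := ∀ (f₀ : V3 → V3 → ℝ) (E₀ B₀ : V3 → V3), IsLocalDatum f₀ E₀ B₀ →
    ∀ R : ℝ, ∃ (f₁ : V3 → V3 → ℝ) (E₁ B₁ : V3 → V3), IsAdmissible f₁ E₁ B₁ ∧
      (∀ x v, len x ≤ R → f₁ x v = f₀ x v) ∧ (∀ x, len x ≤ R → E₁ x = E₀ x) ∧
      (∀ x, len x ≤ R → B₁ x = B₀ x)

/-- A classical solution is a solution without any condition at spatial infinity. -/
theorem IsClassicalSolution.isLocalSolution {T : ℝ} {f : ℝ → V3 → V3 → ℝ} {E B : ℝ → V3 → V3}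
    (h : IsClassicalSolution T f E B) : IsLocalSolution T f E B where
  f_nonneg := h.f_nonneg
  f_c1 := h.f_c1
  E_c1 := h.E_field.c1
  B_c1 := h.B_field.c1
  vlasov := h.vlasov
  ampere := h.ampere
  faraday := h.faraday
  gauss := h.gauss
  gauss_mag := h.gauss_mag
  local_support := fun t ht _ => by
    obtain ⟨P, hP⟩ := h.compact_support t ht
    exact ⟨P, fun s hs x v _ hne => (hP s hs x v hne).2⟩

namespace Glue

lemma continuous_len : Continuous len := by
  unfold len
  fun_prop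

lemma pd_congr {i : Fin 3} {g g' : V3 → ℝ} {x : V3} (h : g =ᶠ[𝓝 x] g') : pd i g x = pd i g' x := by
  unfold pd
  rw [h.fderiv_eq]

/-- The triple `(f, E, B)` solves the system on `[0,T)` if, near every point, it coincides on
`[0,T)` with a solution. -/
theorem of_locally {T : ℝ} {f : ℝ → V3 → V3 → ℝ} {E B : ℝ → V3 → V3} {f' : ℕ → ℝ → V3 → V3 → ℝ}
    {E' B' : ℕ → ℝ → V3 → V3} (hsol : ∀ n, IsLocalSolution T (f' n) (E' n) (B' n))
    (hag : ∀ n : ℕ, ∀ t ∈ Ico 0 T, ∀ x, len x + T < n →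
      f t x = f' n t x ∧ E t x = E' n t x ∧ B t x = B' n t x) : IsLocalSolution T f E B := by
  have hn : ∀ r : ℝ, ∃ n : ℕ, r + T < n := fun r => exists_nat_gt _
  have hO : ∀ n : ℕ, IsOpen {y : V3 | len y + T < n} := fun n =>
    isOpen_lt (continuous_len.add continuous_const) continuous_const
  have hagf : ∀ n : ℕ, ∀ t ∈ Ico 0 T, ∀ x, len x + T < n → ∀ᶠ y in 𝓝 x,
      f t y = f' n t y ∧ E t y = E' n t y ∧ B t y = B' n t y := fun n t ht x hx =>
    Filter.mem_of_superset ((hO n).mem_nhds hx) fun y hy => hag n t ht y hy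
  refine
    { f_nonneg := ?_, f_c1 := ?_, E_c1 := ?_, B_c1 := ?_, vlasov := ?_, ampere := ?_,
      faraday := ?_, gauss := ?_, gauss_mag := ?_, local_support := ?_ }
  · intro t ht x v
    obtain ⟨n, hx⟩ := hn (len x)
    rw [(hag n t ht x hx).1]
    exact (hsol n).f_nonneg t ht x v
  · intro z hz
    obtain ⟨n, hx⟩ := hn (len z.2.1)
    refine ((hsol n).f_c1 z hz).congr_of_eventuallyEq ?_ ?_
    · have h1 : ∀ᶠ z' : ℝ × V3 × V3 in 𝓝[Ico 0 T ×ˢ univ] z, len z'.2.1 + T < n :=
        mem_nhdsWithin_of_mem_nhds (((hO n).preimage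
          (continuous_fst.comp continuous_snd)).mem_nhds hx)
      filter_upwards [h1, self_mem_nhdsWithin] with z' h2 h3
      rw [(hag n z'.1 h3.1 z'.2.1 h2).1]
    · rw [(hag n z.1 hz.1 z.2.1 hx).1]
  · intro z hz
    obtain ⟨n, hx⟩ := hn (len z.2)
    refine ((hsol n).E_c1 z hz).congr_of_eventuallyEq ?_ ?_
    · have h1 : ∀ᶠ z' : ℝ × V3 in 𝓝[Ico 0 T ×ˢ univ] z, len z'.2 + T < n :=
        mem_nhdsWithin_of_mem_nhds (((hO n).preimage continuous_snd).mem_nhds hx)
      filter_upwards [h1, self_mem_nhdsWithin] with z' h2 h3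
      rw [(hag n z'.1 h3.1 z'.2 h2).2.1]
    · rw [(hag n z.1 hz.1 z.2 hx).2.1]
  · intro z hz
    obtain ⟨n, hx⟩ := hn (len z.2)
    refine ((hsol n).B_c1 z hz).congr_of_eventuallyEq ?_ ?_
    · have h1 : ∀ᶠ z' : ℝ × V3 in 𝓝[Ico 0 T ×ˢ univ] z, len z'.2 + T < n :=
        mem_nhdsWithin_of_mem_nhds (((hO n).preimage continuous_snd).mem_nhds hx)
      filter_upwards [h1, self_mem_nhdsWithin] with z' h2 h3
      rw [(hag n z'.1 h3.1 z'.2 h2).2.2]
    · rw [(hag n z.1 hz.1 z.2 hx).2.2]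
  · intro t ht x v
    obtain ⟨n, hx⟩ := hn (len x)
    have h1 := (hsol n).vlasov t ht x v
    have e1 : derivWithin (fun s => f s x v) (Ico 0 T) t
        = derivWithin (fun s => f' n s x v) (Ico 0 T) t :=
      derivWithin_congr (fun s hs => by rw [(hag n s hs x hx).1]) (by rw [(hag n t ht x hx).1])
    have e2 : ∀ i, pd i (fun y => f t y v) x = pd i (fun y => f' n t y v) x := fun i =>
      pd_congr ((hagf n t ht x hx).mono fun y hy => by simp only [hy.1])
    obtain ⟨e3, e4, e5⟩ := hag n t ht x hx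
    simp only [e1, e2, e3, e4, e5]
    exact h1
  · intro t ht x i
    obtain ⟨n, hx⟩ := hn (len x)
    have h1 := (hsol n).ampere t ht x i
    have e1 : derivWithin (fun s => E s x i) (Ico 0 T) t
        = derivWithin (fun s => E' n s x i) (Ico 0 T) t :=
      derivWithin_congr (fun s hs => by rw [(hag n s hs x hx).2.1])
        (by rw [(hag n t ht x hx).2.1])
    have e2 : ∀ j k, pd j (fun y => B t y k) x = pd j (fun y => B' n t y k) x := fun j k =>
      pd_congr ((hagf n t ht x hx).mono fun y hy => by simp only [hy.2.2])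
    have e3 : cur f t x = cur (f' n) t x := by
      unfold cur
      rw [(hag n t ht x hx).1]
    have e4 : curl (B t) x = curl (B' n t) x := by
      funext j
      unfold curl
      rw [e2, e2]
    rw [e1, e3, e4]
    exact h1
  · intro t ht x i
    obtain ⟨n, hx⟩ := hn (len x)
    have h1 := (hsol n).faraday t ht x i
    have e1 : derivWithin (fun s => B s x i) (Ico 0 T) t
        = derivWithin (fun s => B' n s x i) (Ico 0 T) t :=
      derivWithin_congr (fun s hs => by rw [(hag n s hs x hx).2.2])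
        (by rw [(hag n t ht x hx).2.2])
    have e2 : ∀ j k, pd j (fun y => E t y k) x = pd j (fun y => E' n t y k) x := fun j k =>
      pd_congr ((hagf n t ht x hx).mono fun y hy => by simp only [hy.2.1])
    have e4 : curl (E t) x = curl (E' n t) x := by
      funext j
      unfold curl
      rw [e2, e2]
    rw [e1, e4]
    exact h1
  · intro t ht x
    obtain ⟨n, hx⟩ := hn (len x)
    have h1 := (hsol n).gauss t ht x
    have e2 : ∀ j k, pd j (fun y => E t y k) x = pd j (fun y => E' n t y k) x := fun j k =>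
      pd_congr ((hagf n t ht x hx).mono fun y hy => by simp only [hy.2.1])
    have e3 : rho f t x = rho (f' n) t x := by
      unfold rho
      rw [(hag n t ht x hx).1]
    have e4 : div (E t) x = div (E' n t) x := by
      unfold div
      exact Finset.sum_congr rfl fun j _ => e2 j j
    rw [e3, e4]
    exact h1
  · intro t ht x
    obtain ⟨n, hx⟩ := hn (len x)
    have h1 := (hsol n).gauss_mag t ht x
    have e2 : ∀ j k, pd j (fun y => B t y k) x = pd j (fun y => B' n t y k) x := fun j k =>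
      pd_congr ((hagf n t ht x hx).mono fun y hy => by simp only [hy.2.2])
    have e4 : div (B t) x = div (B' n t) x := by
      unfold div
      exact Finset.sum_congr rfl fun j _ => e2 j j
    rw [e4]
    exact h1
  · intro t ht R
    obtain ⟨n, hR⟩ := hn R
    obtain ⟨P, hP⟩ := (hsol n).local_support t ht R
    refine ⟨P, fun s hs x v hx hne => hP s hs x v hx ?_⟩
    have hs' : s ∈ Ico 0 T := ⟨hs.1, hs.2.trans_lt ht.2⟩
    rwa [(hag n s hs' x (by linarith)).1] at hne

end Glue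

/-- **Gluing.** Global solutions for data without any condition at spatial infinity. -/
theorem glue (hs : FiniteSpeed) (ht : Truncation)
    (hg : ∀ (f₀ : V3 → V3 → ℝ) (E₀ B₀ : V3 → V3), IsAdmissible f₀ E₀ B₀ →
      ∃ (f : ℝ → V3 → V3 → ℝ) (E B : ℝ → V3 → V3), (∀ T, 0 < T → IsClassicalSolution T f E B) ∧
        (∀ x v, f 0 x v = f₀ x v) ∧ (∀ x, E 0 x = E₀ x) ∧ (∀ x, B 0 x = B₀ x))
    {f₀ : V3 → V3 → ℝ} {E₀ B₀ : V3 → V3} (h : IsLocalDatum f₀ E₀ B₀) :
    ∃ (f : ℝ → V3 → V3 → ℝ) (E B : ℝ → V3 → V3), (∀ T, 0 < T → IsLocalSolution T f E B) ∧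
      (∀ x v, f 0 x v = f₀ x v) ∧ (∀ x, E 0 x = E₀ x) ∧ (∀ x, B 0 x = B₀ x) := by
  choose f₁ E₁ B₁ hadm hf₁ hE₁ hB₁ using fun n : ℕ => ht f₀ E₀ B₀ h n
  choose f E B hsol hf0 hE0 hB0 using fun n : ℕ => hg (f₁ n) (E₁ n) (B₁ n) (hadm n)
  have hag : ∀ n m : ℕ, n ≤ m → ∀ t : ℝ, 0 ≤ t → ∀ x, len x + t ≤ n →
      f n t x = f m t x ∧ E n t x = E m t x ∧ B n t x = B m t x := by
    intro n m hnm t ht0 x hx
    have hT : (0:ℝ) < t + 1 := by linarith
    have h0 : AgreeAt {x | len (x - 0) ≤ n} 0 (f n) (f m) (E n) (B n) (E m) (B m) := by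
      intro y hy
      have hy' : len y ≤ n := by simpa using hy
      have hy2 : len y ≤ m := hy'.trans (by exact_mod_cast hnm)
      refine ⟨fun v => ?_, ?_, ?_⟩
      · rw [hf0, hf0, hf₁ n y v hy', hf₁ m y v hy2]
      · rw [hE0, hE0, hE₁ n y hy', hE₁ m y hy2]
      · rw [hB0, hB0, hB₁ n y hy', hB₁ m y hy2]
    have h1 := hs (t + 1) (f n) (f m) (E n) (B n) (E m) (B m) 0 n
      (hsol n _ hT).isLocalSolution (hsol m _ hT).isLocalSolution h0 t ⟨ht0, by linarith⟩ x
      (by simp only [mem_ofPred_eq, sub_zero]; linarith)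
    exact ⟨funext h1.1, h1.2.1, h1.2.2⟩
  set N : ℝ → V3 → ℕ := fun t x => ⌈len x + t⌉₊ with hN
  have hNle : ∀ t x, len x + t ≤ N t x := fun t x => Nat.le_ceil _
  have hkey : ∀ n : ℕ, ∀ t : ℝ, 0 ≤ t → ∀ x, len x + t ≤ n →
      f (N t x) t x = f n t x ∧ E (N t x) t x = E n t x ∧ B (N t x) t x = B n t x := by
    intro n t ht0 x hx
    have h1 := hag (N t x) (max (N t x) n) (le_max_left _ _) t ht0 x (hNle t x)
    have h2 := hag n (max (N t x) n) (le_max_right _ _) t ht0 x hx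
    exact ⟨h1.1.trans h2.1.symm, h1.2.1.trans h2.2.1.symm, h1.2.2.trans h2.2.2.symm⟩
  refine ⟨fun t x => f (N t x) t x, fun t x => E (N t x) t x, fun t x => B (N t x) t x,
    fun T hT => ?_, fun x v => ?_, fun x => ?_, fun x => ?_⟩
  · exact Glue.of_locally (fun n => (hsol n T hT).isLocalSolution)
      fun n t ht x hx => hkey n t ht.1 x (by linarith [ht.2])
  · change f (N 0 x) 0 x v = f₀ x v
    rw [hf0]
    exact hf₁ _ x v (by simpa using hNle 0 x)
  · change E (N 0 x) 0 x = E₀ x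
    rw [hE0]
    exact hE₁ _ x (by simpa using hNle 0 x)
  · change B (N 0 x) 0 x = B₀ x
    rw [hB0]
    exact hB₁ _ x (by simpa using hNle 0 x)

end Vale.Agent.P107.RVM

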