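import Vale.Agent.P107.H586.Trunc

/-!
Every smooth density whose momentum support is locally bounded in `x` has a smooth field `E₀` with
`div E₀ = ρ`.
-/

open MeasureTheory Set Filter Topology Metric
open scoped ContDiff

namespace Vale.Agent.P107.RVM

/-- The charge density is smooth. -/
theorem contDiff_charge {f₀ : V3 → V3 → ℝ} (hf : ContDiff ℝ ∞ (fun z : V3 × V3 => f₀ z.1 z.2))
    (hs : ∀ R : ℝ, ∃ P : ℝ, ∀ x v, len x ≤ R → f₀ x v ≠ 0 → len v ≤ P) :
    ContDiff ℝ ∞ (fun x => ∫ v, f₀ x v) := by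
  have hlen : Continuous len := by
    unfold len
    fun_prop
  refine contDiff_iff_contDiffAt.2 fun x₀ => ?_
  obtain ⟨P, hP⟩ := hs (len x₀ + 1)
  have h1 : ContDiff ℝ ∞ (fun x => ∫ v in closedBall (0 : V3) P, f₀ x v) := by
    have : IsFiniteMeasure (volume.restrict (closedBall (0 : V3) P)) :=
      ⟨by
        rw [Measure.restrict_apply_univ]
        exact (isCompact_closedBall (0 : V3) P).measure_lt_top⟩
    refine H586.contDiff_integral_param (S := V3) (F := V3)
      (volume.restrict (closedBall (0 : V3) P)) (K := closedBall (0 : V3) P)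
      (isCompact_closedBall _ _) ?_ (f := fun v x => f₀ x v)
      (hf.comp (contDiff_snd.prodMk contDiff_fst))
    rw [Measure.restrict_apply isClosed_closedBall.measurableSet.compl, compl_inter_self,
      measure_empty]
  refine h1.contDiffAt.congr_of_eventuallyEq ?_
  have h2 : {x : V3 | len x < len x₀ + 1} ∈ 𝓝 x₀ :=
    (isOpen_lt hlen continuous_const).mem_nhds (by simp)
  filter_upwards [h2] with x hx
  refine (setIntegral_eq_integral_of_forall_compl_eq_zero fun v hv => ?_).symm
  by_contra h3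
  refine hv ?_
  rw [mem_closedBall_zero_iff]
  have h4 := hP x v (le_of_lt hx) h3
  refine le_trans ?_ h4
  have h5 : 0 ≤ len v := Real.sqrt_nonneg _
  rw [pi_norm_le_iff_of_nonneg h5]
  intro i
  rw [Real.norm_eq_abs, ← Real.sqrt_sq_eq_abs]
  unfold len
  exact Real.sqrt_le_sqrt (Finset.single_le_sum (f := fun i => v i ^ 2)
    (fun j _ => sq_nonneg (v j)) (Finset.mem_univ i))

/-- Every smooth density whose momentum support is locally bounded in `x` is part of a datum:
there is a smooth field `E₀` with `div E₀ = ρ`. -/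
theorem exists_coulomb (f₀ : V3 → V3 → ℝ) (hf : ContDiff ℝ ∞ (fun z : V3 × V3 => f₀ z.1 z.2))
    (hs : ∀ R : ℝ, ∃ P : ℝ, ∀ x v, len x ≤ R → f₀ x v ≠ 0 → len v ≤ P) :
    ∃ E₀ : V3 → V3, (∀ i, ContDiff ℝ ∞ (fun x => E₀ x i)) ∧ (∀ x, div E₀ x = ∫ v, f₀ x v) :=
  ⟨H586.rad fun x => ∫ v, f₀ x v, H586.contDiff_rad (contDiff_charge hf hs),
    H586.div_rad (contDiff_charge hf hs)⟩

end Vale.Agent.P107.RVM

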